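import Mathlib

/-!
# P116, block MIX: from a law to finite mixtures

The average over a law of Lipschitz functions of the maps `Φ ω` is, locally uniformly, a limit of
finite mixtures of the same functions of approximating maps.
-/

open Set Filter Topology Metric Bornology MeasureTheory
open scoped NNReal

namespace Vale.Agent.P116.Cl

section

variable {Ω : Type*} [TopologicalSpace Ω] [CompactSpace Ω] [MeasurableSpace Ω] [BorelSpace Ω]

/-- a measurable choice of a cell, from a finite measurable cover -/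
lemma exists_idx {ι : Type*} [Finite ι] {Ω : Type*} [MeasurableSpace Ω] (B : ι → Set Ω)
    (hB : ∀ i, MeasurableSet (B i)) (hcov : ∀ ω, ∃ i, ω ∈ B i) :
    ∃ (n : ℕ) (e : Fin n → ι) (idx : Ω → Fin n), Measurable idx ∧ ∀ ω, ω ∈ B (e (idx ω)) := by
  classical
  obtain ⟨n, ⟨e⟩⟩ := Finite.exists_equiv_fin ι
  have hex : ∀ ω, ∃ k : ℕ, ∃ h : k < n, ω ∈ B (e.symm ⟨k, h⟩) := by
    intro ω
    obtain ⟨i, hi⟩ := hcov ω
    exact ⟨(e i : ℕ), (e i).2, by simpa using hi⟩
  have hm : ∀ k : ℕ, MeasurableSet {ω | ∃ h : k < n, ω ∈ B (e.symm ⟨k, h⟩)} := by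
    intro k
    by_cases h : k < n
    · have : {ω | ∃ h : k < n, ω ∈ B (e.symm ⟨k, h⟩)} = B (e.symm ⟨k, h⟩) := by
        ext ω
        exact ⟨fun ⟨_, h2⟩ => h2, fun h2 => ⟨h, h2⟩⟩
      rw [this]
      exact hB _
    · have : {ω | ∃ h : k < n, ω ∈ B (e.symm ⟨k, h⟩)} = ∅ := by
        ext ω
        constructor
        · rintro ⟨h2, -⟩
          exact absurd h2 h
        · exact fun h2 => h2.elim
      rw [this]
      exact MeasurableSet.empty
  have hmf : Measurable fun ω => Nat.find (hex ω) := measurable_find hex hm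
  refine ⟨n, fun i => e.symm i, fun ω => ⟨Nat.find (hex ω), (Nat.find_spec (hex ω)).1⟩, ?_, ?_⟩
  · refine measurable_to_countable' fun i => ?_
    have : (fun ω => (⟨Nat.find (hex ω), (Nat.find_spec (hex ω)).1⟩ : Fin n)) ⁻¹' {i} =
        (fun ω => Nat.find (hex ω)) ⁻¹' {(i : ℕ)} := by
      ext ω
      simp [Fin.ext_iff]
    rw [this]
    exact hmf (measurableSet_singleton _)
  · intro ω
    exact (Nat.find_spec (hex ω)).2

/-- finite mixtures of a law -/
theorem exists_mix (P : Measure Ω) [IsProbabilityMeasure P] {G : Set ℂ} {Φ : Ω → ℂ → ℂ}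
    (hΦ : ContinuousOn (fun q : Ω × ℂ => Φ q.1 q.2) (univ ×ˢ G)) {p : Ω → ℂ} (hp : Measurable p)
    (hpb : IsBounded (range p)) {χ : ℂ → ℝ} {L : ℝ≥0} (hχ : LipschitzWith L χ) {C₀ : Set ℂ}
    (hC : IsCompact C₀) (hCG : C₀ ⊆ G) {ε : ℝ} (hε : 0 < ε) :
    ∃ (n : ℕ) (w : Fin n → ℝ) (pt : Fin n → Ω), (∀ i, 0 ≤ w i) ∧ ∑ i, w i = 1 ∧
      ∀ z ∈ C₀, |(∫ ω, χ (Φ ω z - p ω) ∂P) - ∑ i, w i * χ (Φ (pt i) z - p (pt i))| ≤ ε := by
  classical
  -- small constant
  set η : ℝ := ε / (4 * (L + 1)) with hη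
  have hL : (0 : ℝ) < L + 1 := by positivity
  have hηp : 0 < η := by positivity
  -- the cover of `Ω`
  have h1 : ∀ ω : Ω, ∃ v ∈ 𝓝 ω, ∀ ω' ∈ v, ∀ z ∈ C₀, dist (Φ ω' z) (Φ ω z) < η := by
    intro ω
    obtain ⟨v, hv, h⟩ := hC.mem_uniformity_of_prod (f := Φ) (s := univ) (q := ω)
      (u := {q : ℂ × ℂ | dist q.1 q.2 < η})
      (hΦ.mono (prod_mono Subset.rfl hCG)) (mem_univ _) (dist_mem_uniformity hηp)
    rw [nhdsWithin_univ] at hv
    exact ⟨v, hv, h⟩
  choose v hv hvd using h1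
  obtain ⟨t, ht⟩ := CompactSpace.elim_nhds_subcover (fun ω => interior (v ω))
    fun ω => interior_mem_nhds.2 (hv ω)
  -- the cover of the plane
  obtain ⟨s, hs⟩ : ∃ s : Finset ℂ, ∀ ω, ∃ c ∈ s, p ω ∈ ball c η := by
    obtain ⟨R, hR⟩ := hpb.subset_closedBall (0 : ℂ)
    obtain ⟨s, -, hs⟩ := (isCompact_closedBall (0 : ℂ) R).elim_nhds_subcover
      (fun c => ball c η) fun c _ => ball_mem_nhds c hηp
    refine ⟨s, fun ω => ?_⟩
    have h2 := hs (hR ⟨ω, rfl⟩)
    rw [mem_iUnion₂] at h2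
    obtain ⟨c, hc, h3⟩ := h2
    exact ⟨c, hc, h3⟩
  obtain ⟨n, e, idx, hidx, hidx2⟩ := exists_idx
    (ι := {q : Ω × ℂ // q ∈ t ×ˢ s}) (fun q => interior (v q.1.1) ∩ p ⁻¹' (ball q.1.2 η))
    (fun q => isOpen_interior.measurableSet.inter (hp isOpen_ball.measurableSet)) (by
      intro ω
      have h2 : ω ∈ (⊤ : Set Ω) := trivial
      rw [← ht, mem_iUnion₂] at h2
      obtain ⟨x, hx, h3⟩ := h2
      obtain ⟨c, hc, h4⟩ := hs ω
      exact ⟨⟨(x, c), Finset.mk_mem_product hx hc⟩, h3, h4⟩)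
  -- representatives
  obtain ⟨ω₀⟩ : Nonempty Ω := nonempty_of_isProbabilityMeasure P
  set pt : Fin n → Ω := fun i => if h : ∃ ω, idx ω = i then h.choose else ω₀ with hpt
  have hpt2 : ∀ ω, idx (pt (idx ω)) = idx ω := by
    intro ω
    have h2 : ∃ ω', idx ω' = idx ω := ⟨ω, rfl⟩
    rw [hpt]
    simp only [h2, dif_pos]
    exact h2.choose_spec
  -- two points of the same cell
  have hclose : ∀ ω, ∀ z ∈ C₀, |χ (Φ ω z - p ω) - χ (Φ (pt (idx ω)) z - p (pt (idx ω)))| ≤ ε := by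
    intro ω z hz
    set ω' := pt (idx ω) with hω'
    obtain ⟨ha, hb⟩ := hidx2 ω
    obtain ⟨ha', hb'⟩ := hidx2 ω'
    rw [hpt2 ω] at ha' hb'
    have hb1 : dist (p ω) (e (idx ω)).1.2 < η := hb
    have hb2 : dist (p ω') (e (idx ω)).1.2 < η := hb'
    have ha1 := hvd _ ω (interior_subset ha) z hz
    have ha2 := hvd _ ω' (interior_subset ha') z hz
    have h3 := hχ.dist_le_mul (Φ ω z - p ω) (Φ ω' z - p ω')
    rw [Real.dist_eq] at h3
    refine h3.trans ?_
    have h4 : dist (Φ ω z - p ω) (Φ ω' z - p ω') ≤ 4 * η := by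
      have h5 : dist (Φ ω z) (Φ ω' z) ≤ 2 * η := by
        have := dist_triangle_right (Φ ω z) (Φ ω' z) (Φ (e (idx ω)).1.1 z)
        linarith
      have h6 : dist (p ω) (p ω') ≤ 2 * η := by
        have := dist_triangle_right (p ω) (p ω') (e (idx ω)).1.2
        linarith
      have h7 := dist_sub_sub_le (Φ ω z) (p ω) (Φ ω' z) (p ω')
      linarith
    calc (L : ℝ) * dist (Φ ω z - p ω) (Φ ω' z - p ω') ≤ L * (4 * η) := by gcongr
      _ ≤ (L + 1) * (4 * η) := by gcongr; linarith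
      _ = ε := by rw [hη]; field_simp
  refine ⟨n, fun i => P.real (idx ⁻¹' {i}), pt, fun i => measureReal_nonneg, ?_, ?_⟩
  · have h2 : IsProbabilityMeasure (P.map idx) := Measure.isProbabilityMeasure_map hidx.aemeasurable
    have h3 := integral_fintype (μ := P.map idx) (f := fun _ : Fin n => (1 : ℝ))
      (integrable_const _)
    simp only [integral_const, smul_eq_mul, mul_one, probReal_univ] at h3
    rw [h3]
    refine Finset.sum_congr rfl fun i _ => ?_
    change (P (idx ⁻¹' {i})).toReal = (P.map idx {i}).toReal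
    rw [Measure.map_apply hidx (measurableSet_singleton i)]
  · intro z hz
    set f : Ω → ℝ := fun ω => χ (Φ ω z - p ω) with hf
    set F : Fin n → ℝ := fun i => χ (Φ (pt i) z - p (pt i)) with hF
    have hFi : Integrable (fun ω => F (idx ω)) P := by
      have h2 : IsProbabilityMeasure (P.map idx) :=
        Measure.isProbabilityMeasure_map hidx.aemeasurable
      have h3 : Integrable F (P.map idx) := Integrable.of_finite
      exact h3.comp_measurable hidx
    have hfm : AEStronglyMeasurable f P := by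
      have h2 : Continuous fun ω => Φ ω z := by
        have h3 : Continuous fun ω : Ω => (ω, z) := by fun_prop
        exact hΦ.comp_continuous h3 fun ω => ⟨mem_univ _, hCG hz⟩
      exact (hχ.continuous.measurable.comp (h2.measurable.sub hp)).aestronglyMeasurable
    have hfi : Integrable f P := by
      have h2 : Integrable (fun ω => f ω - F (idx ω)) P := by
        refine Integrable.of_bound (hfm.sub hFi.aestronglyMeasurable) ε
          (Eventually.of_forall fun ω => ?_)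
        rw [Real.norm_eq_abs]
        exact hclose ω z hz
      have h3 : f = (fun ω => f ω - F (idx ω)) + fun ω => F (idx ω) := by
        funext ω
        simp
      rw [h3]
      exact h2.add hFi
    have hsum : ∫ ω, F (idx ω) ∂P = ∑ i, P.real (idx ⁻¹' {i}) * F i := by
      have h2 : IsProbabilityMeasure (P.map idx) :=
        Measure.isProbabilityMeasure_map hidx.aemeasurable
      have h3 := integral_map (μ := P) (φ := idx) (f := F) hidx.aemeasurable
        (measurable_of_countable F).aestronglyMeasurable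
      rw [← h3, integral_fintype (μ := P.map idx) (f := F) Integrable.of_finite]
      refine Finset.sum_congr rfl fun i _ => ?_
      rw [smul_eq_mul, measureReal_def, measureReal_def,
        Measure.map_apply hidx (measurableSet_singleton i)]
    rw [← hsum, ← integral_sub hfi hFi]
    have h4 := norm_integral_le_of_norm_le_const (μ := P) (f := fun ω => f ω - F (idx ω)) (C := ε)
      (Eventually.of_forall fun ω => by
        rw [Real.norm_eq_abs]
        exact hclose ω z hz)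
    simpa [Real.norm_eq_abs] using h4

/-- the same with approximating maps -/
theorem exists_mix_approx (P : Measure Ω) [IsProbabilityMeasure P] {G : Set ℂ} {Φ : Ω → ℂ → ℂ}
    (hΦ : ContinuousOn (fun q : Ω × ℂ => Φ q.1 q.2) (univ ×ˢ G)) {p : Ω → ℂ} (hp : Measurable p)
    (hpb : IsBounded (range p)) {χ : ℂ → ℝ} {L : ℝ≥0} (hχ : LipschitzWith L χ)
    {α : Type*} {F : α → ℂ → ℂ} {𝔊 : Ω → Filter α} (hne : ∀ ω, (𝔊 ω).NeBot)
    (hconv : ∀ ω, TendstoLocallyUniformlyOn F (Φ ω) (𝔊 ω) G) (hG : IsOpen G)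
    {Q : α → Prop} (hQ : ∀ ω, ∀ᶠ S in 𝔊 ω, Q S) {C₀ : Set ℂ}
    (hC : IsCompact C₀) (hCG : C₀ ⊆ G) {ε : ℝ} (hε : 0 < ε) :
    ∃ (n : ℕ) (w : Fin n → ℝ) (S : Fin n → α) (q : Fin n → ℂ), (∀ i, 0 ≤ w i) ∧ ∑ i, w i = 1 ∧
      (∀ i, Q (S i)) ∧ (∀ i, q i ∈ range p) ∧
      ∀ z ∈ C₀, |(∫ ω, χ (Φ ω z - p ω) ∂P) - ∑ i, w i * χ (F (S i) z - q i)| ≤ ε := by
  obtain ⟨n, w, pt, hw0, hw1, h⟩ := exists_mix P hΦ hp hpb hχ hC hCG (ε := ε / 2) (by positivity)
  have hex : ∀ i, ∃ S, Q S ∧ ∀ z ∈ C₀, dist (Φ (pt i) z) (F S z) < ε / (2 * (L + 1)) := by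
    intro i
    have h1 : TendstoUniformlyOn F (Φ (pt i)) (𝔊 (pt i)) C₀ :=
      (tendstoLocallyUniformlyOn_iff_forall_isCompact hG).1 (hconv (pt i)) C₀ hCG hC
    have h2 := (Metric.tendstoUniformlyOn_iff.1 h1) (ε / (2 * (L + 1))) (by positivity)
    have := hne (pt i)
    obtain ⟨S, h3, h4⟩ := ((hQ (pt i)).and h2).exists
    exact ⟨S, h3, h4⟩
  choose S hS1 hS2 using hex
  refine ⟨n, w, S, fun i => p (pt i), hw0, hw1, hS1, fun i => ⟨_, rfl⟩, fun z hz => ?_⟩
  have h1 := h z hz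
  have h2 : |(∑ i, w i * χ (Φ (pt i) z - p (pt i))) - ∑ i, w i * χ (F (S i) z - p (pt i))| ≤
      ε / 2 := by
    rw [← Finset.sum_sub_distrib]
    refine (Finset.abs_sum_le_sum_abs _ _).trans ?_
    calc ∑ i, |w i * χ (Φ (pt i) z - p (pt i)) - w i * χ (F (S i) z - p (pt i))|
        ≤ ∑ i, w i * (ε / 2) := by
          refine Finset.sum_le_sum fun i _ => ?_
          rw [← mul_sub, abs_mul, abs_of_nonneg (hw0 i)]
          refine mul_le_mul_of_nonneg_left ?_ (hw0 i)
          have h3 := hχ.dist_le_mul (Φ (pt i) z - p (pt i)) (F (S i) z - p (pt i))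
          rw [Real.dist_eq, dist_sub_right] at h3
          refine h3.trans ?_
          have h4 := (hS2 i z hz).le
          calc (L : ℝ) * dist (Φ (pt i) z) (F (S i) z) ≤ (L + 1) * (ε / (2 * (L + 1))) := by
                gcongr
                linarith
            _ = ε / 2 := by field_simp
      _ = ε / 2 := by rw [← Finset.sum_mul, hw1, one_mul]
  have h3 := abs_sub_le (∫ ω, χ (Φ ω z - p ω) ∂P) (∑ i, w i * χ (Φ (pt i) z - p (pt i)))
    (∑ i, w i * χ (F (S i) z - p (pt i)))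
  linarith

/-- **MIX**: the average is, locally uniformly on `G`, the limit of a sequence of finite mixtures,
where the `j`-th mixture consists of structures with the property `Q j`. -/
theorem exists_mix_seq (P : Measure Ω) [IsProbabilityMeasure P] {G : Set ℂ} {Φ : Ω → ℂ → ℂ}
    (hΦ : ContinuousOn (fun q : Ω × ℂ => Φ q.1 q.2) (univ ×ˢ G)) {p : Ω → ℂ} (hp : Measurable p)
    (hpb : IsBounded (range p)) {χ : ℂ → ℝ} {L : ℝ≥0} (hχ : LipschitzWith L χ)
    {α : Type*} {F : α → ℂ → ℂ} {𝔊 : Ω → Filter α} (hne : ∀ ω, (𝔊 ω).NeBot)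
    (hconv : ∀ ω, TendstoLocallyUniformlyOn F (Φ ω) (𝔊 ω) G) (hG : IsOpen G)
    {Q : ℕ → α → Prop} (hQ : ∀ j ω, ∀ᶠ S in 𝔊 ω, Q j S) :
    ∃ (n : ℕ → ℕ) (w : ∀ j, Fin (n j) → ℝ) (S : ∀ j, Fin (n j) → α) (q : ∀ j, Fin (n j) → ℂ),
      (∀ j i, 0 ≤ w j i) ∧ (∀ j, ∑ i, w j i = 1) ∧ (∀ j i, Q j (S j i)) ∧
      (∀ j i, q j i ∈ range p) ∧
      TendstoLocallyUniformlyOn (fun j z => ∑ i, w j i * χ (F (S j i) z - q j i))
        (fun z => ∫ ω, χ (Φ ω z - p ω) ∂P) atTop G := by
  -- exhaustion of `G` by compact sets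
  obtain ⟨E, hE1, hE2, hE3⟩ : ∃ E : ℕ → Set ℂ, (∀ j, IsCompact (E j)) ∧ (∀ j, E j ⊆ G) ∧
      ∀ C : Set ℂ, IsCompact C → C ⊆ G → ∀ᶠ j in atTop, C ⊆ E j := by
    refine ⟨fun j => closedBall (0 : ℂ) j ∩ {z | 1 / ((j : ℝ) + 1) ≤ infDist z Gᶜ ∨ Gᶜ = ∅},
      fun j => ?_, fun j z hz => ?_, fun C hC hCG => ?_⟩
    · refine (isCompact_closedBall _ _).inter_right ?_
      by_cases h : Gᶜ = ∅
      · simp [h]
      · simp only [h, or_false]
        exact isClosed_le continuous_const (continuous_infDist_pt _)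
    · rcases hz.2 with h | h
      · by_contra hzG
        have h2 : infDist z Gᶜ = 0 := infDist_zero_of_mem hzG
        rw [h2] at h
        have : (0 : ℝ) < 1 / ((j : ℝ) + 1) := by positivity
        linarith
      · by_contra hzG
        have : z ∈ Gᶜ := hzG
        rw [h] at this
        exact this
    · rcases (Gᶜ).eq_empty_or_nonempty with h | h
      · obtain ⟨R, hR⟩ := hC.isBounded.subset_closedBall (0 : ℂ)
        filter_upwards [eventually_ge_atTop ⌈R⌉₊] with j hj z hz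
        refine ⟨closedBall_subset_closedBall ((Nat.le_ceil R).trans (by exact_mod_cast hj))
          (hR hz), Or.inr h⟩
      · obtain ⟨R, hR⟩ := hC.isBounded.subset_closedBall (0 : ℂ)
        obtain ⟨δ, hδ, hδ2⟩ : ∃ δ > 0, ∀ z ∈ C, δ ≤ infDist z Gᶜ := by
          rcases C.eq_empty_or_nonempty with hC0 | hC0
          · exact ⟨1, one_pos, fun z hz => by rw [hC0] at hz; exact hz.elim⟩
          · obtain ⟨z₀, hz₀, hmin⟩ := hC.exists_isMinOn hC0
              (continuous_infDist_pt (Gᶜ)).continuousOn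
            refine ⟨infDist z₀ Gᶜ, ?_, fun z hz => hmin hz⟩
            exact (hG.isClosed_compl.notMem_iff_infDist_pos h).1 fun h2 => h2 (hCG hz₀)
        obtain ⟨m, hm⟩ := exists_nat_one_div_lt hδ
        filter_upwards [eventually_ge_atTop ⌈R⌉₊, eventually_ge_atTop m] with j hj hjm z hz
        refine ⟨closedBall_subset_closedBall ((Nat.le_ceil R).trans (by exact_mod_cast hj))
          (hR hz), Or.inl (le_trans ?_ (hδ2 z hz))⟩
        refine le_trans ?_ hm.le
        apply one_div_le_one_div_of_le (by positivity)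
        have : (m : ℝ) ≤ j := by exact_mod_cast hjm
        linarith
  have hex := fun j => exists_mix_approx P hΦ hp hpb hχ hne hconv hG (hQ j) (hE1 j) (hE2 j)
    (ε := 1 / ((j : ℝ) + 1)) (by positivity)
  choose n w S q h0 h1 h2 h3 h4 using hex
  refine ⟨n, w, S, q, h0, h1, h2, h3, ?_⟩
  rw [tendstoLocallyUniformlyOn_iff_forall_isCompact hG]
  intro C hCG hC
  rw [Metric.tendstoUniformlyOn_iff]
  intro ε hε
  obtain ⟨m, hm⟩ := exists_nat_one_div_lt hε
  filter_upwards [hE3 C hC hCG, eventually_ge_atTop m] with j hj hjm z hz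
  rw [Real.dist_eq]
  refine (h4 j z (hj hz)).trans_lt (lt_of_le_of_lt ?_ hm)
  apply one_div_le_one_div_of_le (by positivity)
  have : (m : ℝ) ≤ j := by exact_mod_cast hjm
  linarith

end

end Vale.Agent.P116.Cl
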